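import Vale.Agent.P219.CH.Core.Chord
import Vale.Agent.P219.CH.Core.Field.Point
import Vale.Agent.P219.CH.Gen.Defs
import Vale.Agent.P219.CH.Gen.LogDeriv

/-!
P219, general kernels: the radial fields `z ↦ ψ (dist x z ², p z) V x z` at one point, where
`p z = -G x (logm x z) ν` for a parameter `ν` with `G x ν ν ≤ 1`. Along `V` the function `p` is
homogeneous of degree one; orthogonally its slope is at most `√(1 - c²)` as `exp` expands.
-/

namespace Vale.Agent.P219.CH.Gen.Field

open Set Filter Topology Vale.Agent.P219.CH.Core Vale.Agent.P219.CH.Core.Field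

noncomputable section

variable {n : ℕ} {G : Coeff n} (Γ : Geo G)

theorem dlogm_V (x y : E n) : fderiv ℝ (Γ.logm x) y (Γ.V x y) = Γ.logm x y := by
  set u := Γ.logm x y
  have hd : DifferentiableAt ℝ (Γ.logm x) y :=
    ((Γ.logm_c1.comp (contDiff_prodMk_right x)).differentiable one_ne_zero).differentiableAt
  have hγ : HasDerivAt (fun s => (Γ.flow s (x, u)).1) (Γ.V x y) 1 := by
    have := ((Γ.flow_geodesic (x, u)).1 1).1
    rwa [(Γ.flow_geodesic (x, u)).2 1] at this
  have e : ∀ s : ℝ, Γ.logm x (Γ.flow s (x, u)).1 = s • u := fun s => by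
    have h := Γ.flow_scale s 1 x u
    rw [mul_one] at h
    rw [← Γ.logm_exp x (s • u), h]
  have h1 := hd.hasFDerivAt.comp_hasDerivAt_of_eq 1 hγ (Γ.exp_logm x y).symm
  have h2 : HasDerivAt (Γ.logm x ∘ fun s => (Γ.flow s (x, u)).1) u 1 := by
    rw [show (Γ.logm x ∘ fun s => (Γ.flow s (x, u)).1) = fun s => s • u from funext e]
    simpa using (hasDerivAt_id (1 : ℝ)).smul_const u
  exact h1.unique h2

/-- The function `p = r c`. -/
def pr (x ν y : E n) : ℝ := -G x (Γ.logm x y) ν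

theorem contDiff_pr (hG : IsMetric G) :
    ContDiff ℝ 1 fun q : (E n × E n) × E n => pr Γ q.1.1 q.1.2 q.2 :=
  ((((hG.smooth.of_le (by simp)).comp contDiff_fst.fst).clm_apply
    (Γ.logm_c1.comp (contDiff_fst.fst.prodMk contDiff_snd))).clm_apply contDiff_fst.snd).neg

theorem fderiv_pr (x ν y w : E n) :
    fderiv ℝ (pr Γ x ν) y w = -G x (fderiv ℝ (Γ.logm x) y w) ν := by
  have hl : DifferentiableAt ℝ (Γ.logm x) y :=
    ((Γ.logm_c1.comp (contDiff_prodMk_right x)).differentiable one_ne_zero).differentiableAt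
  have h := ((((G x).flip ν).hasFDerivAt).comp y hl.hasFDerivAt).neg
  rw [show pr Γ x ν = -(⇑((G x).flip ν) ∘ Γ.logm x) from rfl, h.fderiv]
  rfl

/-- `p` is `dist` times the inward cosine at the base point. -/
theorem pr_eq (hG : IsMetric G) (f : E n → ℝ) (x y : E n) :
    pr Γ x (normal G f x) y = Γ.dist x y * cosAt Γ f y x := by
  have h1 := Chord.dist_back Γ (x, Γ.logm x y)
  have h2 := (Chord.logm_flow_back Γ (x, Γ.logm x y)).2
  simp only [Γ.exp_logm] at h1 h2
  rw [show Γ.dist x y = Γ.dist y x from h1.symm, dist_mul_cosAt Γ hG f y x, h2]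
  simp [pr]

/-- The slope of `p` seen from a point where the direction has cosine `d`. -/
theorem cross_le (hCH : IsCH G) {x ν y μ : E n} {r c d : ℝ} (hr : 0 < r)
    (hρ : rho Γ x y = r ^ 2) (hν : G x ν ν ≤ 1) (hμ : G y μ μ ≤ 1)
    (hp : pr Γ x ν y = r * c) (hd : G y (Γ.V x y) μ = r * d) :
    |c * d - fderiv ℝ (pr Γ x ν) y μ| ≤ Real.sqrt (1 - c ^ 2) * Real.sqrt (1 - d ^ 2) := by
  have hG := hCH.metric
  set V := Γ.V x y
  set u := Γ.logm x y
  set w := μ - (d / r) • V
  set a := fderiv ℝ (Γ.logm x) y w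
  have hVV : G y V V = r ^ 2 := by rw [sq_V Γ hG, hρ]
  have huu : G x u u = r ^ 2 := hρ
  have hw : G y w w = G y μ μ - d ^ 2 := by
    simp only [w, map_sub, map_smul, sub_apply, smul_apply, smul_eq_mul, hG.symm y μ V, hd, hVV]
    field_simp
    ring
  have hua : G x u a = 0 := by
    rw [Γ.logm_dlogm hCH]
    simp only [w, map_sub, map_smul, smul_eq_mul]
    change G y V μ - d / r * G y V V = 0
    rw [hd, hVV]
    field_simp
    ring
  have hsplit : fderiv ℝ (pr Γ x ν) y μ = c * d - G x a ν := by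
    have e : fderiv ℝ (Γ.logm x) y μ = a + (d / r) • u := by
      simp only [a, w, map_sub, map_smul, V, u, dlogm_V Γ x y]
      abel
    rw [fderiv_pr, e]
    simp only [map_add, map_smul, add_apply, smul_apply, smul_eq_mul]
    have hp' : G x u ν = -(r * c) := by simp only [pr] at hp; linarith
    rw [hp']
    field_simp
    ring
  rw [hsplit, sub_sub_cancel]
  set ν' := ν + (c / r) • u
  have h1 : G x a ν = G x a ν' := by
    simp only [ν', map_add, map_smul, smul_eq_mul, hG.symm x a u, hua]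
    ring
  have h2 : G x ν' ν' = G x ν ν - c ^ 2 := by
    have hp' : G x u ν = -(r * c) := by simp only [pr] at hp; linarith
    simp only [ν', map_add, map_smul, add_apply, smul_apply, smul_eq_mul, hG.symm x ν u, hp', huu]
    field_simp
    ring
  rw [h1]
  refine (hG.cauchy x a ν').trans ?_
  rw [mul_comm (Real.sqrt (1 - c ^ 2))]
  refine mul_le_mul ?_ ?_ (gnorm_nonneg _ _ _) (Real.sqrt_nonneg _)
  · exact Real.sqrt_le_sqrt ((Γ.dlogm_le hCH x y w).trans (by rw [hw]; linarith))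
  · exact Real.sqrt_le_sqrt (by rw [h2]; linarith)

/-- The radial field of the profile `ψ`. -/
def radial (ψ : ℝ → ℝ → ℝ) (x ν y : E n) : E n := ψ (rho Γ x y) (pr Γ x ν y) • Γ.V x y

theorem contDiff_radial (hG : IsMetric G) {ψ : ℝ → ℝ → ℝ}
    (hψ : ContDiff ℝ 1 (Function.uncurry ψ)) :
    ContDiff ℝ 1 fun q : (E n × E n) × E n => radial Γ ψ q.1.1 q.1.2 q.2 :=
  (hψ.comp (((contDiff_rho Γ hG).comp (contDiff_fst.fst.prodMk contDiff_snd)).prodMk
    (contDiff_pr Γ hG))).smul ((contDiff_V Γ).comp (contDiff_fst.fst.prodMk contDiff_snd))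

theorem fderiv_uncurry_pair (ψ : ℝ → ℝ → ℝ) (q : ℝ × ℝ) (a b : ℝ) :
    fderiv ℝ (Function.uncurry ψ) q (a, b) = fderiv ℝ (Function.uncurry ψ) q (1, 0) * a +
      fderiv ℝ (Function.uncurry ψ) q (0, 1) * b := by
  conv_lhs => rw [show ((a, b) : ℝ × ℝ) = a • ((1, 0) : ℝ × ℝ) + b • ((0, 1) : ℝ × ℝ) by simp]
  simp only [map_add, map_smul, smul_eq_mul]
  ring

theorem covd_radial (hG : IsMetric G) {ψ : ℝ → ℝ → ℝ} (hψ : ContDiff ℝ 1 (Function.uncurry ψ))
    (x ν y w : E n) :
    covd G (radial Γ ψ x ν) y w = ψ (rho Γ x y) (pr Γ x ν y) • covd G (Γ.V x) y w +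
      (fderiv ℝ (Function.uncurry ψ) (rho Γ x y, pr Γ x ν y) (1, 0) * (2 * G y (Γ.V x y) w) +
        fderiv ℝ (Function.uncurry ψ) (rho Γ x y, pr Γ x ν y) (0, 1) *
          fderiv ℝ (pr Γ x ν) y w) • Γ.V x y := by
  have hr : DifferentiableAt ℝ (rho Γ x) y :=
    (((contDiff_rho Γ hG).comp (contDiff_prodMk_right x)).differentiable one_ne_zero).differentiableAt
  have hp : DifferentiableAt ℝ (pr Γ x ν) y :=
    (((contDiff_pr Γ hG).comp (contDiff_prodMk_right (x, ν))).differentiable one_ne_zero).differentiableAt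
  have hV : DifferentiableAt ℝ (Γ.V x) y :=
    (((contDiff_V Γ).comp (contDiff_prodMk_right x)).differentiable one_ne_zero).differentiableAt
  have h1 := ((hψ.differentiable one_ne_zero (rho Γ x y, pr Γ x ν y)).hasFDerivAt.comp y
    (hr.hasFDerivAt.prodMk hp.hasFDerivAt)).fun_smul hV.hasFDerivAt
  have e : fderiv ℝ (rho Γ x) y w = 2 * G y (Γ.V x y) w := Γ.grad_dist x y w
  have h2 : fderiv ℝ (radial Γ ψ x ν) y = _ := h1.fderiv
  simp only [covd, h2, add_apply, smul_apply, ContinuousLinearMap.smulRight_apply,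
    ContinuousLinearMap.comp_apply, ContinuousLinearMap.prod_apply, e, radial,
    Function.comp_apply, chr_smul_right, Function.uncurry_apply_pair]
  rw [fderiv_uncurry_pair ψ _ (2 * G y (Γ.V x y) w) (fderiv ℝ (pr Γ x ν) y w), smul_add]
  abel

/-- The pointwise bound of the tangential divergence. -/
theorem divTan_radial_ge (hCH : IsCH G) {ψ : ℝ → ℝ → ℝ}
    (hψ : ContDiff ℝ 1 (Function.uncurry ψ)) (hψ0 : ∀ s p, 0 ≤ s → 0 ≤ ψ s p)
    (f : E n → ℝ) (x y : E n) :
    geom n ψ (Γ.dist x y) (cosAt Γ f y x) (cosAt Γ f x y) ≤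
      divTan G f (radial Γ ψ x (normal G f x)) y := by
  have hG := hCH.metric
  set ν := normal G f x
  set μ := normal G f y
  set r := Γ.dist x y
  set c := cosAt Γ f y x
  set d := cosAt Γ f x y
  have hρ : rho Γ x y = r ^ 2 := (dist_sq Γ hG x y).symm
  have hp : pr Γ x ν y = r * c := pr_eq Γ hG f x y
  have hq : G y (Γ.V x y) μ = r * d := (dist_mul_cosAt Γ hG f x y).symm
  have hL := le_trace_sub (G y) (hG.symm y) (hG.pos y) (covdL G (Γ.V x) y)
    (fun w => Γ.hess x y w) (normal_sq hG f y)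
  rw [← divg_eq_trace, covdL_apply] at hL
  have hdV : fderiv ℝ (pr Γ x ν) y (Γ.V x y) = r * c := by
    rw [fderiv_pr, dlogm_V]; exact hp
  have hdiv : divg G (radial Γ ψ x ν) y = ψ (r ^ 2) (r * c) * divg G (Γ.V x) y +
      (2 * r ^ 2 * dS ψ r c + r * c * dP ψ r c) := by
    simp only [divg, covd_radial Γ hG hψ, hρ, hp, PiLp.add_apply, PiLp.smul_apply, smul_eq_mul,
      Finset.sum_add_distrib, ← Finset.mul_sum]
    congr 1
    calc ∑ i, (fderiv ℝ (Function.uncurry ψ) (r ^ 2, r * c) (1, 0) *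
          (2 * G y (Γ.V x y) (EuclideanSpace.single i 1)) +
          fderiv ℝ (Function.uncurry ψ) (r ^ 2, r * c) (0, 1) *
            fderiv ℝ (pr Γ x ν) y (EuclideanSpace.single i 1)) * Γ.V x y i
        = 2 * dS ψ r c * ∑ i, G y (Γ.V x y) (EuclideanSpace.single i 1) * Γ.V x y i +
            dP ψ r c * ∑ i, fderiv ℝ (pr Γ x ν) y (EuclideanSpace.single i 1) * Γ.V x y i := by
          rw [Finset.mul_sum, Finset.mul_sum, ← Finset.sum_add_distrib]
          exact Finset.sum_congr rfl fun i _ => by rw [dS, dP]; ring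
      _ = _ := by
          rw [sum_mul_coord (G y (Γ.V x y)), sum_mul_coord (fderiv ℝ (pr Γ x ν) y), sq_V Γ hG,
            hρ, hdV]
          ring
  have hn : ψ (r ^ 2) (r * c) * ((n : ℝ) - 1) ≤
      ψ (r ^ 2) (r * c) * (divg G (Γ.V x) y - G y (covd G (Γ.V x) y μ) μ) :=
    mul_le_mul_of_nonneg_left (by linarith [normal_sq_le hG f y]) (hψ0 _ _ (sq_nonneg r))
  have hcross : -(|dP ψ r c| * r * |d| * Real.sqrt (1 - c ^ 2) * Real.sqrt (1 - d ^ 2)) ≤
      dP ψ r c * r * d * (c * d - fderiv ℝ (pr Γ x ν) y μ) := by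
    rcases (dist_nonneg Γ x y).eq_or_lt with h | h
    · simp [r, ← h]
    · have hle := mul_le_mul_of_nonneg_left
        (cross_le Γ hCH h hρ (normal_sq_le hG f x) (normal_sq_le hG f y) hp hq)
        (mul_nonneg (mul_nonneg (abs_nonneg (dP ψ r c)) h.le) (abs_nonneg d))
      have habs : |dP ψ r c * r * d * (c * d - fderiv ℝ (pr Γ x ν) y μ)| =
          |dP ψ r c| * r * |d| * |c * d - fderiv ℝ (pr Γ x ν) y μ| := by
        rw [abs_mul, abs_mul, abs_mul, abs_of_pos h]
      have := neg_abs_le (dP ψ r c * r * d * (c * d - fderiv ℝ (pr Γ x ν) y μ))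
      rw [habs] at this
      rw [mul_assoc _ (Real.sqrt _)]
      linarith
  simp only [divTan, hdiv, covd_radial Γ hG hψ, hρ, hp, map_add, map_smul, add_apply, smul_apply,
    smul_eq_mul, geom]
  rw [show G y (Γ.V x y) (normal G f y) = r * d from hq]
  unfold dS dP at *
  linear_combination hn + hcross

end

end Vale.Agent.P219.CH.Gen.Field
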